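import Vale.Agent.P255.H370.Defs
import Mathlib.AlgebraicTopology.FundamentalGroupoid.FundamentalGroup
import Mathlib.GroupTheory.Index
import Mathlib.GroupTheory.OrderOfElement
import Mathlib.Topology.Covering.Basic

/-!
# P255: groups acting on `CAT(0)` spaces, and coverings
-/

open scoped Manifold ContDiff

noncomputable section

namespace Vale.Agent.P255.H635

open Vale.Agent.P255 Vale.Agent.P255.H370

/-- The inequality (CN) of Bruhat and Tits: any two points `y`, `z` have a midpoint `m` such that
`d(x,m)² ≤ (d(x,y)² + d(x,z)²)/2 - d(y,z)²/4` for all `x`. Every `CAT(0)` space satisfies it. -/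
def IsCN (X : Type) [MetricSpace X] : Prop :=
  ∀ y z : X, ∃ m : X, ∀ x : X,
    dist x m ^ 2 ≤ (dist x y ^ 2 + dist x z ^ 2) / 2 - dist y z ^ 2 / 4

/-- `G` is a `CAT(0)` group: it acts on a nonempty metric space satisfying (CN) by isometries,
properly (only finitely many elements move a given point by at most `R`) and cocompactly. -/
def IsCAT0Group (G : Type) [Group G] : Prop :=
  ∃ (X : Type) (_ : MetricSpace X) (_ : MulAction G X), Nonempty X ∧ IsCN X ∧
    (∀ (g : G) (x y : X), dist (g • x) (g • y) = dist x y) ∧
    (∀ (x : X) (R : ℝ), {g : G | dist x (g • x) ≤ R}.Finite) ∧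
    ∃ K : Set X, IsCompact K ∧ ∀ x : X, ∃ g : G, g • x ∈ K

/-- `G` acts on a nonempty metric space satisfying (CN) by semisimple isometries (the displacement
of every element attains its minimum), and only elements of finite order have fixed points. No
properness or compactness is assumed. -/
def ActsSemisimply (G : Type) [Group G] : Prop :=
  ∃ (X : Type) (_ : MetricSpace X) (_ : MulAction G X), Nonempty X ∧ IsCN X ∧
    (∀ (g : G) (x y : X), dist (g • x) (g • y) = dist x y) ∧
    (∀ g : G, ∃ x : X, ∀ y : X, dist x (g • x) ≤ dist y (g • y)) ∧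
    ∀ (g : G) (x : X), g • x = x → IsOfFinOrder g

/-- No subgroup `H` of finite index of `G`
* acts by semisimple isometries, only the elements of finite order having fixed points, on a
  nonempty `CAT(0)` space,
* embeds in a `CAT(0)` group,
* embeds in the fundamental group of a closed manifold, of any dimension, which carries a metric
  of nonpositive sectional curvature. -/
def NotVirtuallyCAT0 (G : Type) [Group G] : Prop :=
  ∀ H : Subgroup G, H.FiniteIndex →
    ¬ ActsSemisimply H ∧
    (∀ (D : Type) [Group D] (φ : H →* D), Function.Injective φ → ¬ IsCAT0Group D) ∧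
    ∀ (F : Type) [NormedAddCommGroup F] [NormedSpace ℝ F] [FiniteDimensional ℝ F]
      (N : Type) [TopologicalSpace N] [ChartedSpace F N] [IsManifold 𝓘(ℝ, F) ∞ N]
      [CompactSpace N] [T2Space N] (p : N) (φ : H →* FundamentalGroup N p),
      Function.Injective φ → ¬ AdmitsNonpos F N

/-- Some closed covering manifold of `M` carries a metric of nonpositive sectional curvature. -/
def HasNonposCover (M : Type) [TopologicalSpace M] : Prop :=
  ∃ (F : Type) (_ : NormedAddCommGroup F) (_ : NormedSpace ℝ F)
    (N : Type) (_ : TopologicalSpace N) (_ : ChartedSpace F N) (_ : IsManifold 𝓘(ℝ, F) ∞ N)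
    (p : N → M), FiniteDimensional ℝ F ∧ Nonempty N ∧ CompactSpace N ∧ T2Space N ∧
      IsCoveringMap p ∧ AdmitsNonpos F N

end Vale.Agent.P255.H635
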