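import Vale.Agent.P255.H635.Defs
import Vale.Agent.P255.H35.VirtS
import Vale.Agent.P255.H443.Joint
import Vale.Agent.P255.H443.Cov
import Vale.Agent.P255.H370.Main

set_option linter.all false

/-!
# P255: the fundamental groups of the counterexamples are not virtually `CAT(0)`
-/

open scoped Manifold ContDiff Topology
open Set Filter

set_option maxSynthPendingDepth 3

noncomputable section

namespace Vale.Agent.P255.H635

open Vale.Agent.P255 Vale.Agent.P255.H370 Vale.Agent.P255.H443

/-- The configuration of elements of the fundamental group of the counterexamples. -/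
def Conf (G : Type) [Group G] : Prop :=
  ∃ z z' A₁ A₂ B₁ B₂ : G,
    Commute z A₁ ∧ Commute z A₂ ∧ A₁ * A₂ * A₁⁻¹ * A₂⁻¹ = z' ∧
    Commute z' B₁ ∧ Commute z' B₂ ∧ B₁ * B₂ * B₁⁻¹ * B₂⁻¹ = z * z'⁻¹ ∧
    ∀ N : ℕ, 0 < N → z' ^ N ≠ 1

theorem Conf.map {G G' : Type} [Group G] [Group G'] (h : Conf G) (f : G →* G')
    (hf : Function.Injective f) : Conf G' := by
  obtain ⟨z, z', A₁, A₂, B₁, B₂, h1, h2, h3, h4, h5, h6, h7⟩ := h
  refine ⟨f z, f z', f A₁, f A₂, f B₁, f B₂, h1.map f, h2.map f, ?_, h4.map f, h5.map f, ?_, ?_⟩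
  · rw [← h3]; simp only [map_mul, map_inv]
  · have := congrArg f h6
    simpa only [map_mul, map_inv] using this
  · intro N hN h8
    rw [← map_pow] at h8
    exact h7 N hN (hf (h8.trans (map_one f).symm))

/-- A cocompact proper action on a space satisfying (CN), in the form used in the closure. -/
theorem cnAct_of {G X : Type} [Group G] [MetricSpace X] [MulAction G X] (hX : IsCN X)
    (hi : ∀ (g : G) (x y : X), dist (g • x) (g • y) = dist x y)
    (hp : ∀ (x : X) (R : ℝ), {g : G | dist x (g • x) ≤ R}.Finite)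
    (hc : ∃ K : Set X, IsCompact K ∧ ∀ x : X, ∃ g : G, g • x ∈ K) :
    CNAct G X (fun x y : X => dist x y) where
  nonneg x y := dist_nonneg
  self x := dist_self x
  symm x y := dist_comm x y
  tri x y z := dist_triangle x y z
  inv g x y := hi g x y
  cn := hX
  proper := hp
  cocompact := by
    intro x
    obtain ⟨K, hK, hKx⟩ := hc
    choose g hg using fun n : ℕ => hKx (x n)
    obtain ⟨y, -, φ, hφ, hy⟩ := hK.tendsto_subseq hg
    refine ⟨fun n => g (φ n), y, φ, hφ, ?_⟩
    exact (tendsto_iff_dist_tendsto_zero.1 hy)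

theorem fin_of_cnAct {G X : Type} [Group G] [MulAction G X] [Nonempty X] {d : X → X → ℝ}
    (h : CNAct G X d) (g : G) (x : X) (hx : d x (g • x) = 0) : IsOfFinOrder g := by
  have hpow : ∀ n : ℕ, d x ((g ^ n) • x) ≤ 0 := by
    intro n
    induction n with
    | zero => rw [pow_zero, one_smul, h.self]
    | succ n ih =>
      have h1 := h.tri x ((g ^ n) • x) ((g ^ (n + 1)) • x)
      have h2 : d ((g ^ n) • x) ((g ^ (n + 1)) • x) = 0 := by
        rw [pow_succ, mul_smul, h.inv, hx]
      linarith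
  by_contra hcon
  exact Set.infinite_of_injective_forall_mem (injective_pow_iff_not_isOfFinOrder.2 hcon)
    (fun n => hpow n) (h.proper x 0)

theorem ss_of {G X : Type} [Group G] [MetricSpace X] [MulAction G X] (hX : IsCN X)
    (hi : ∀ (g : G) (x y : X), dist (g • x) (g • y) = dist x y)
    (hs : ∀ g : G, ∃ x : X, ∀ y : X, dist x (g • x) ≤ dist y (g • y)) :
    H35.SSAct G X (fun x y : X => dist x y) :=
  ⟨fun x y => dist_nonneg, fun x => dist_self x, fun x y => dist_comm x y,
    fun x y z => dist_triangle x y z, hi, hX, hs⟩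

theorem Conf.notVirtually {G : Type} [Group G] (h : Conf G) : NotVirtuallyCAT0 G := by
  obtain ⟨z, z', A₁, A₂, B₁, B₂, h1, h2, h3, h4, h5, h6, h7⟩ := h
  intro H hH
  refine ⟨?_, ?_, ?_⟩
  · rintro ⟨X, i1, i2, hne, hX, hi, hs, hf⟩
    exact H35.S.virt_act H (ss_of hX hi hs) (fun g x hg => hf g x (dist_eq_zero.1 hg).symm)
      h1 h2 h3 h4 h5 h6 h7
  · rintro D _ φ hφ ⟨X, i1, i2, hne, hX, hi, hp, hc⟩
    have hD := cnAct_of hX hi hp hc
    exact H35.S.virt (H35.ss_of_cn hD) (fin_of_cnAct hD) H φ hφ h1 h2 h3 h4 h5 h6 h7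
  · rintro F _ _ _ N _ _ _ _ _ p φ hφ ⟨g, hg⟩
    obtain ⟨g', hg'⟩ := exists_metric g
    obtain ⟨X, i2, d, hne, hX, -⟩ := exists_cnAct g' (npc_of hg' hg) p
    exact H35.S.virt (H35.ss_of_cn hX) (fin_of_cnAct hX) H φ hφ h1 h2 h3 h4 h5 h6 h7

theorem not_hasNonposCover {M : Type} [TopologicalSpace M] [T2Space M]
    (h : ∀ m : M, NotVirtuallyCAT0 (FundamentalGroup M m)) : ¬ HasNonposCover M := by
  rintro ⟨F, i1, i2, N, i3, i4, i5, p, h1, ⟨x⟩, h3, h4, hp, hN⟩
  have hinj := cov_injective ⟨p, hp.continuous⟩ hp x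
  exact (h _ _ (cov_finiteIndex ⟨p, hp.continuous⟩ hp x)).2.2 F N x (MonoidHom.ofInjective hinj).symm.toMonoidHom
    (MonoidHom.ofInjective hinj).symm.injective hN

theorem conf_of_carriesInf {E M : Type} [NormedAddCommGroup E] [NormedSpace ℝ E]
    [TopologicalSpace M] [ChartedSpace E M] [ConnectedSpace M] (h : CarriesInf E M) (m : M) :
    Conf (FundamentalGroup M m) := by
  obtain ⟨-, m₀, h⟩ := h
  have : LocallyPathConnectedSpace M := ChartedSpace.locallyPathConnectedSpace E M
  have : PathConnectedSpace M := pathConnectedSpace_iff_connectedSpace.2 inferInstance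
  have h' : Conf (FundamentalGroup M m₀) := h
  let φ := FundamentalGroup.fundamentalGroupMulEquivOfPathConnected (X := M) m₀ m
  exact h'.map φ.toMonoidHom φ.injective

theorem conf_prod {M N : Type} [TopologicalSpace M] [TopologicalSpace N] (m : M) (b : N)
    (h : Conf (FundamentalGroup M m)) : Conf (FundamentalGroup (M × N) (m, b)) := by
  let ι : C(M, M × N) := ⟨fun x => (x, b), by fun_prop⟩
  let π : C(M × N, M) := ⟨Prod.fst, continuous_fst⟩
  let f : FundamentalGroup M m →* FundamentalGroup (M × N) (m, b) := FundamentalGroup.map ι m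
  have hf : Function.Injective f := by
    intro x y hxy
    have h9 := congrArg (fun q : Path.Homotopic.Quotient (m, b) (m, b) => q.map π) hxy
    have h10 : ∀ x : FundamentalGroup M m,
        (Path.Homotopic.Quotient.map (x₀ := (m, b)) (x₁ := (m, b)) (f x) π :
          Path.Homotopic.Quotient m m) = x := by
      intro x
      induction x using Quotient.inductionOn with
      | h p => rfl
    have h11 := (h10 x).symm.trans (h9.trans (h10 y))
    exact h11
  exact h.map f hf

theorem main (n : ℕ) (hn : 3 ≤ n) :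
    ∃ (E : Type) (_ : NormedAddCommGroup E) (_ : NormedSpace ℝ E)
      (M : Type) (_ : TopologicalSpace M) (_ : ChartedSpace E M) (_ : IsManifold 𝓘(ℝ, E) ∞ M),
      Module.finrank ℝ E = n ∧
      CompactSpace M ∧ T2Space M ∧ SecondCountableTopology M ∧ ConnectedSpace M ∧
      AdmitsNoConj E M ∧ ¬ AdmitsNonpos E M ∧ ¬ HasNonposCover M ∧
      (∀ m : M, NotVirtuallyCAT0 (FundamentalGroup M m)) ∧
      ∀ (F : Type) [NormedAddCommGroup F] [NormedSpace ℝ F] [FiniteDimensional ℝ F]
        (N : Type) [TopologicalSpace N] [ChartedSpace F N] [IsManifold 𝓘(ℝ, F) ∞ N]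
        [CompactSpace N] [T2Space N] [Nonempty N], AdmitsNoConj F N →
        ProdAdmitsNoConj E M F N ∧ ¬ HasNonposCover (M × N) ∧
        ∀ q : M × N, NotVirtuallyCAT0 (FundamentalGroup (M × N) q) := by
  obtain ⟨E, i1, i2, M, i3, i4, i5, i6, h1, h2, h3, h4, h5⟩ := exists_carriesInf (n - 3)
  have h5' := h5
  obtain ⟨⟨g, hg⟩, -⟩ := h5'
  have hconf := fun m : M => conf_of_carriesInf h5 m
  have hm := fun m : M => (hconf m).notVirtually
  refine ⟨E, i1, i2, M, i3, i4, i5, by omega, h2, h3, ?_, h4, ?_, ?_, not_hasNonposCover hm,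
    hm, ?_⟩
  · have : SecondCountableTopology E := secondCountable_of_proper
    exact ChartedSpace.secondCountable_of_sigmaCompact E M
  · obtain ⟨g', hg'⟩ := exists_rmetric g
    exact ⟨g', noConjugatePoints_of hg' hg⟩
  · rintro ⟨q1, hq1⟩
    obtain ⟨q', hq'⟩ := exists_metric q1
    exact h5.carries.not_npc q' (npc_of hq' hq1)
  · intro F _ _ _ N _ _ _ _ _ _ hk
    obtain ⟨k, hk⟩ := hk
    obtain ⟨k', hk'⟩ := exists_metric k
    have hk2 : NoConj k' := noConj_of (fun a u _ v w => (hk' a u v w).symm) hk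
    obtain ⟨⟨q, hq⟩, -⟩ := h5.prod hk2
    obtain ⟨q', hq'⟩ := exists_rmetric q
    have hmn : ∀ q : M × N, NotVirtuallyCAT0 (FundamentalGroup (M × N) q) := by
      rintro ⟨m, b⟩
      exact (conf_prod m b (hconf m)).notVirtually
    exact ⟨⟨q', noConjugatePoints_of hq' hq⟩, not_hasNonposCover hmn, hmn⟩

end Vale.Agent.P255.H635
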